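import Vale.Agent.P353.H48.Defs

/-!
# Rotations, fermion parity and the Witten index of the BFSS model and its plane-wave deformation
-/

open MeasureTheory

namespace Vale.Agent.P353.BFSS

variable {N d : ℕ} {F : Type*} [NormedAddCommGroup F] [InnerProductSpace ℂ F]

/-- The rotation of the configuration space by the angle `t` in the plane of the directions
`k ≠ l`. -/
noncomputable def planeRot (k l : Fin 9) (t : ℝ) (x : Conf d) : Conf d :=
  WithLp.toLp 2 fun p =>
    if p.1 = k then Real.cos t * x (k, p.2) + Real.sin t * x (l, p.2)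
    else if p.1 = l then Real.cos t * x (l, p.2) - Real.sin t * x (k, p.2)
    else x p

/-- The wave functions with the property `G` form, modulo functions that vanish almost everywhere,
a space of dimension `n`: there are `n` of them, linearly independent almost everywhere, of which
all the others are linear combinations almost everywhere. -/
def HasDim (G : (Conf d → F) → Prop) (n : ℕ) : Prop :=
  ∃ Φ : Fin n → Conf d → F, (∀ j, G (Φ j)) ∧
    (∀ c : Fin n → ℂ, (∀ᵐ x ∂leb d, ∑ j, c j • Φ j x = 0) → c = 0) ∧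
    ∀ Ψ, G Ψ → ∃ c : Fin n → ℂ, ∀ᵐ x ∂leb d, Ψ x = ∑ j, c j • Φ j x

/-- The number of even minus the number of odd states with the property `G` is `n`, for the fermion
parity `P`: the even states form a space of dimension `a`, the odd states a space of dimension `b`,
and `n = a - b`. -/
def HasWittenIndex (P : F →L[ℂ] F) (G : (Conf d → F) → Prop) (n : ℤ) : Prop :=
  ∃ a b : ℕ, HasDim (fun Ψ : Conf d → F => G Ψ ∧ ∀ᵐ x ∂leb d, P (Ψ x) = Ψ x) a ∧
    HasDim (fun Ψ : Conf d → F => G Ψ ∧ ∀ᵐ x ∂leb d, P (Ψ x) = -Ψ x) b ∧ n = a - b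

namespace Model

/-- `P` is a fermion parity `(-1)^F`: a norm preserving involution of `F` that anticommutes with
all the generators `θ_α^A`. -/
structure IsParity (M : Model N d F) (P : F →L[ℂ] F) : Prop where
  involutive : ∀ v, P (P v) = v
  isometry : ∀ v, ‖P v‖ = ‖v‖
  anticomm : ∀ α A v, P (M.θ α A v) = -M.θ α A (P v)

/-- The rotation of the fermions by the angle `t` in the `(k,l)`-plane,
`exp ((t/4) ∑ γ^{kl}_{αβ} θ_α^A θ_β^A)`. -/
noncomputable def spinRot (M : Model N d F) (k l : Fin 9) (t : ℝ) : F →L[ℂ] F :=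
  NormedSpace.exp (∑ A, ∑ α, ∑ β, ((t / 4 * M.γ2 k l α β : ℝ) : ℂ) • (M.θ α A * M.θ β A))

/-- `Ψ` is invariant under all rotations in the `(k,l)`-plane, which act on the index `i` of
`x_i^A` and on the index `α` of `θ_α^A`. -/
def RotInvariant (M : Model N d F) (k l : Fin 9) (Ψ : Conf d → F) : Prop :=
  ∀ t : ℝ, ∀ᵐ x ∂leb d, M.spinRot k l t (Ψ (planeRot k l (-t) x)) = Ψ x

end Model

end Vale.Agent.P353.BFSS
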