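import Vale.Agent.P353.H451.Defs
import Vale.Agent.P353.H48.Main

set_option linter.all false

/-! # All supersymmetric vacua are even: the Witten index -/

open MeasureTheory Filter Topology
open scoped ContDiff

namespace Vale.Agent.P353.H451

open Vale.Agent.P353.Z Vale.Agent.P353.Z.U Vale.Agent.P353.H48

variable {N d : ℕ} {F : Type*} [NormedAddCommGroup F] [InnerProductSpace ℂ F]
  {M : BFSS.Model N d F} {S : Setup d F}

/-- the rotations of the configuration space in the two notations -/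
theorem planeRot_eq {k l : Fin 9} (h : k ≠ l) (t : ℝ) (x : Cfg d) :
    BFSS.planeRot k l t x = RR k l t x := by
  ext p
  obtain ⟨i, A⟩ := p
  rw [RR_apply]
  simp only [BFSS.planeRot]
  by_cases h1 : i = k
  · subst h1
    simp only [if_true, if_neg h]
    ring
  · by_cases h2 : i = l
    · subst h2
      simp only [if_true, if_neg h1]
      ring
    · simp only [if_neg h1, if_neg h2]
      ring

/-- the spin rotations in the two notations -/
theorem spinRot_eq [CompleteSpace F] (hR : Rep M S) (k l : Fin 9) (t : ℝ) :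
    M.spinRot k l t = S.st k l t := by
  unfold BFSS.Model.spinRot Setup.st
  congr 1
  unfold Setup.Skl CS.tot CS.bil CS.vec
  rw [smul_smul, smul_smul, Finset.smul_sum]
  refine Finset.sum_congr rfl fun A _ => ?_
  rw [Finset.smul_sum]
  refine Finset.sum_congr rfl fun α _ => ?_
  rw [Finset.mul_sum, Finset.smul_sum]
  refine Finset.sum_congr rfl fun β _ => ?_
  rw [mul_smul_comm, smul_smul, mb_g2 hR, hR.hth]
  congr 1
  push_cast
  linear_combination ((t : ℂ) * (M.γ2 k l α β : ℂ) / 4) * Complex.I_mul_I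

open AS.Ev977 in
/-- weakly rotation invariant square integrable functions are rotation invariant -/
theorem rot_all [CompleteSpace F] (S : Setup d F) {k l : Fin 9} (h : k ≠ l)
    (Ψ : Lp F 2 (volume : Measure (Cfg d)))
    (hJ : ∀ ζ, Setup.Tst ζ → ∫ x, inner ℂ (S.J k l ζ x) (Ψ x) = 0) (t : ℝ) :
    ∀ᵐ x ∂(volume : Measure (Cfg d)), S.st k l t (Ψ (RR k l (-t) x)) = Ψ x := by
  have hm : MemLp (fun x => S.st k l t (Ψ (RR k l (-t) x))) 2 (volume : Measure (Cfg d)) := by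
    have h1 : MemLp (fun x => (Ψ : Cfg d → F) (RR k l (-t) x)) 2 (volume : Measure (Cfg d)) :=
      (Lp.memLp Ψ).comp_measurePreserving (RI h (-t)).measurePreserving
    exact (S.st k l t).comp_memLp' h1
  have hloc : LocallyIntegrable (fun x => (Ψ : Cfg d → F) x) (volume : Measure (Cfg d)) :=
    (Lp.memLp Ψ).locallyIntegrable (by norm_num)
  have hloc1 : LocallyIntegrable (fun x => S.st k l t (Ψ (RR k l (-t) x)))
      (volume : Measure (Cfg d)) := hm.locallyIntegrable (by norm_num)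
  refine ae_eq_of_integral_contDiff_smul_eq hloc1 hloc fun g hg hgc => ?_
  have hI1 : Integrable (fun x => g x • S.st k l t (Ψ (RR k l (-t) x)))
      (volume : Measure (Cfg d)) :=
    hloc1.integrable_smul_left_of_hasCompactSupport hg.continuous hgc
  have hI2 : Integrable (fun x => g x • (Ψ x)) (volume : Measure (Cfg d)) :=
    hloc.integrable_smul_left_of_hasCompactSupport hg.continuous hgc
  refine ext_inner_right ℂ fun w => ?_
  have hT : Setup.Tst (fun x : Cfg d => g x • w) := ⟨hg.smul contDiff_const, hgc.smul_right⟩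
  have h1 := rot_const S h Ψ hJ (fun x => g x • w) hT (-t)
  have h2 := S.inner_Ut h t (fun x => (Ψ : Cfg d → F) x) (fun x => g x • w)
  rw [inner_int hI1, inner_int hI2]
  have e : ∀ f : Cfg d → F, (∫ x, inner ℂ (g x • f x) w) = ∫ x, inner ℂ (f x) (g x • w) := by
    intro f
    congr 1
    ext x
    rw [inl, inr]
  rw [e, e]
  exact h2.trans h1

/-- the same for functions -/
theorem rot_fun [CompleteSpace F] (S : Setup d F) {k l : Fin 9} (h : k ≠ l) {Ψ : Cfg d → F}
    (hΨ : MemLp Ψ 2 (volume : Measure (Cfg d)))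
    (hJ : ∀ ζ, Setup.Tst ζ → ∫ x, inner ℂ (S.J k l ζ x) (Ψ x) = 0) (t : ℝ) :
    ∀ᵐ x ∂(volume : Measure (Cfg d)), S.st k l t (Ψ (RR k l (-t) x)) = Ψ x := by
  have hae := hΨ.coeFn_toLp
  have h1 := rot_all S h (hΨ.toLp Ψ) (fun ζ hζ => by
    rw [← hJ ζ hζ]
    refine integral_congr_ae ?_
    filter_upwards [hae] with x hx
    rw [hx]) t
  have h2 : ∀ᵐ x ∂(volume : Measure (Cfg d)),
      (hΨ.toLp Ψ : Cfg d → F) (RR k l (-t) x) = Ψ (RR k l (-t) x) :=
    (RI h (-t)).measurePreserving.quasiMeasurePreserving.ae hae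
  filter_upwards [h1, h2, hae] with x h3 h4 h5
  rw [h4, h5] at h3
  exact h3

/-- zero-energy states are weakly invariant under all rotations -/
theorem wJ_zero [FiniteDimensional ℂ F] (hR : Rep M S) {Ψ : Cfg d → F}
    (hΨ : M.IsZeroEnergyState Ψ) {k l : Fin 9} (h : k ≠ l) (ζ : Cfg d → F) (hζ : Setup.Tst ζ) :
    ∫ x, inner ℂ (S.J k l ζ x) (Ψ x) = 0 := by
  have : CompleteSpace F := FiniteDimensional.complete ℂ F
  have hm2 : MemLp Ψ 2 (volume : Measure (Cfg d)) := hΨ.1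
  have hZ := bridge_of_gauss M (gaussLaw M) S hR Ψ hm2 hΨ
  rw [← zj S _ hZ k l h ζ hζ]
  refine integral_congr_ae ?_
  filter_upwards [hm2.coeFn_toLp] with x hx
  rw [hx]

/-- ground states of the deformed model are weakly invariant under the rotations that preserve
the two blocks of directions -/
theorem wJ_pos [FiniteDimensional ℂ F] (hR : Rep M S) {m : ℝ} (hm : 0 < m) {Ψ : Cfg d → F}
    (hΨ : M.IsGroundState m Ψ) : S.wJ Ψ := by
  have : CompleteSpace F := FiniteDimensional.complete ℂ F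
  obtain ⟨h1, h2, h3⟩ := weak_of_ground hR (gaussLaw M) hΨ
  exact AH.Br.wJ_of_wQ S (All.A1 S) hm h1 h2 h3

theorem rot_zero [FiniteDimensional ℂ F] (hR : Rep M S) {Ψ : Cfg d → F}
    (hΨ : M.IsZeroEnergyState Ψ) {k l : Fin 9} (h : k ≠ l) : M.RotInvariant k l Ψ := by
  have : CompleteSpace F := FiniteDimensional.complete ℂ F
  intro t
  have hm2 : MemLp Ψ 2 (volume : Measure (Cfg d)) := hΨ.1
  have h1 := rot_fun S h hm2 (wJ_zero hR hΨ h) t
  rw [BFSS.leb]
  filter_upwards [h1] with x hx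
  rw [spinRot_eq hR, planeRot_eq h]
  exact hx

theorem rot_pos [FiniteDimensional ℂ F] (hR : Rep M S) {m : ℝ} (hm : 0 < m) {Ψ : Cfg d → F}
    (hΨ : M.IsGroundState m Ψ) {k l : Fin 9} (h : k ≠ l) (hkl : k.val < 3 ↔ l.val < 3) :
    M.RotInvariant k l Ψ := by
  have : CompleteSpace F := FiniteDimensional.complete ℂ F
  intro t
  have hm2 : MemLp Ψ 2 (volume : Measure (Cfg d)) := hΨ.1
  have h1 := rot_fun S h hm2 (wJ_pos hR hm hΨ k l ⟨h, hkl⟩) t
  rw [BFSS.leb]
  filter_upwards [h1] with x hx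
  rw [spinRot_eq hR, planeRot_eq h]
  exact hx

/-! ### the parity -/

/-- the rotation by `2 π` anticommutes with the fermions -/
theorem st_anti [CompleteSpace F] (S : Setup d F) {k l : Fin 9} (h : k ≠ l) (α : Fin 16)
    (A : Fin d) (v : F) :
    S.st k l (2 * Real.pi) (S.th α A v) = -S.th α A (S.st k l (2 * Real.pi) v) := by
  have hg : S.gt k l (2 * Real.pi) = -1 := AS.Ev977.gt_two_pi S k l
  have h1 := S.vec_mul_st h 1 A α (2 * Real.pi)
  rw [hg, one_mul, CS.vec_neg, S.vec_one] at h1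
  have h2 := congrArg (fun X : F →L[ℂ] F => X v) h1
  simp only [mul_apply_eq_comp, _root_.neg_apply, map_neg] at h2
  rw [h2, neg_neg]

/-- an operator that anticommutes with the fermions and fixes a vector is an involution -/
theorem invol (M : BFSS.Model N d F) {T : F →L[ℂ] F}
    (hT : ∀ α A v, T (M.θ α A v) = -M.θ α A (T v)) {v₀ : F} (h0 : v₀ ≠ 0) (h1 : T v₀ = v₀) (v : F) :
    T (T v) = v := by
  let W : Submodule ℂ F :=
    { carrier := {v | T (T v) = v}
      zero_mem' := by simp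
      add_mem' := fun {a b} ha hb => by
        simp only [Set.mem_setOf_eq] at ha hb ⊢
        rw [map_add, map_add, ha, hb]
      smul_mem' := fun c a ha => by
        simp only [Set.mem_setOf_eq] at ha ⊢
        rw [map_smul, map_smul, ha] }
  have hW : ∀ α A, ∀ v ∈ W, M.θ α A v ∈ W := by
    intro α A v hv
    change T (T (M.θ α A v)) = M.θ α A v
    have hv' : T (T v) = v := hv
    rw [hT, map_neg, hT, neg_neg, hv']
  rcases M.θ_irreducible W hW with h | h
  · have h2 : v₀ ∈ W := by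
      change T (T v₀) = v₀
      rw [h1, h1]
    rw [h, Submodule.mem_bot] at h2
    exact absurd h2 h0
  · have h2 : v ∈ W := by
      rw [h]
      exact Submodule.mem_top
    exact h2

/-- the fermion parity is unique up to a sign -/
theorem parity_unique [FiniteDimensional ℂ F] (M : BFSS.Model N d F) {P P' : F →L[ℂ] F}
    (h : M.IsParity P) (h' : M.IsParity P') : P' = P ∨ P' = -P := by
  obtain ⟨v₀, hv₀⟩ := M.nontrivial
  have hnt : Nontrivial F := ⟨⟨v₀, 0, hv₀⟩⟩
  set T : F →L[ℂ] F := P * P' with hT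
  have hTv : ∀ v, T v = P (P' v) := fun v => rfl
  have hcomm : ∀ α A (v : F), T (M.θ α A v) = M.θ α A (T v) := by
    intro α A v
    rw [hTv, hTv, h'.anticomm, map_neg, h.anticomm, neg_neg]
  obtain ⟨μ, hμ⟩ := Module.End.exists_eigenvalue (T : F →ₗ[ℂ] F)
  have hall : ∀ v, T v = μ • v := by
    rcases M.θ_irreducible (Module.End.eigenspace (T : F →ₗ[ℂ] F) μ) (fun α A v hv => by
      rw [Module.End.mem_eigenspace_iff] at hv ⊢
      change T (M.θ α A v) = μ • M.θ α A v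
      have hv' : T v = μ • v := hv
      rw [hcomm, hv', map_smul]) with h1 | h1
    · exact absurd h1 hμ
    · intro v
      have hv : v ∈ Module.End.eigenspace (T : F →ₗ[ℂ] F) μ := by
        rw [h1]
        exact Submodule.mem_top
      exact Module.End.mem_eigenspace_iff.mp hv
  have hP' : ∀ v, P' v = μ • P v := by
    intro v
    have h1 := hall v
    rw [hTv] at h1
    have h2 := congrArg P h1
    rw [h.involutive, map_smul] at h2
    exact h2
  have hsq : μ * μ = 1 := by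
    have h1 := h'.involutive v₀
    rw [hP' v₀, map_smul, hP', h.involutive, smul_smul] at h1
    have h2 : (μ * μ - 1) • v₀ = 0 := by
      rw [sub_smul, one_smul, h1, sub_self]
    rcases smul_eq_zero.mp h2 with h3 | h3
    · exact sub_eq_zero.mp h3
    · exact absurd h3 hv₀
  rcases mul_self_eq_one_iff.mp hsq with h1 | h1
  · left
    ext v
    rw [hP', h1, one_smul]
  · right
    ext v
    rw [hP', h1, neg_smul, one_smul]
    rfl

/-! ### dimensions and the index -/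

theorem hasDim_one {G : (Cfg d → F) → Prop} {Φ : Cfg d → F} (h1 : G Φ)
    (h2 : ¬ ∀ᵐ x ∂BFSS.leb d, Φ x = 0)
    (h3 : ∀ Ψ, G Ψ → ∃ c : ℂ, ∀ᵐ x ∂BFSS.leb d, Ψ x = c • Φ x) : BFSS.HasDim G 1 := by
  refine ⟨fun _ => Φ, fun _ => h1, fun c hc => ?_, fun Ψ hΨ => ?_⟩
  · by_contra hne
    have h0 : c 0 ≠ 0 := by
      intro h
      refine hne (funext fun j => ?_)
      rw [Subsingleton.elim j 0, h]
      rfl
    refine h2 ?_
    filter_upwards [hc] with x hx
    rw [Fin.sum_univ_one] at hx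
    exact (smul_eq_zero.mp hx).resolve_left h0
  · obtain ⟨c, hc⟩ := h3 Ψ hΨ
    refine ⟨fun _ => c, ?_⟩
    filter_upwards [hc] with x hx
    rw [Fin.sum_univ_one, hx]

theorem index_of_even {P : F →L[ℂ] F} {G : (Cfg d → F) → Prop} {n : ℕ} (h : BFSS.HasDim G n)
    (he : ∀ Ψ, G Ψ → ∀ᵐ x ∂BFSS.leb d, P (Ψ x) = Ψ x) : BFSS.HasWittenIndex P G n := by
  obtain ⟨Φ, h1, h2, h3⟩ := h
  refine ⟨n, 0, ⟨Φ, fun j => ⟨h1 j, he _ (h1 j)⟩, h2, fun Ψ hΨ => h3 Ψ hΨ.1⟩,
    ⟨fun j => j.elim0, fun j => j.elim0, fun c _ => Subsingleton.elim _ _, fun Ψ hΨ => ?_⟩,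
    by simp⟩
  refine ⟨0, ?_⟩
  filter_upwards [he Ψ hΨ.1, hΨ.2] with x hx hx'
  rw [hx] at hx'
  simp only [Finset.univ_eq_empty, Finset.sum_empty]
  have h4 : (2 : ℂ) • Ψ x = 0 := by
    rw [two_smul]
    nth_rewrite 2 [hx']
    rw [add_neg_cancel]
  exact (smul_eq_zero.mp h4).resolve_left two_ne_zero

theorem even_of_rot {P : F →L[ℂ] F} {k l : Fin 9} (hkl : k ≠ l)
    (hP : M.spinRot k l (2 * Real.pi) = P) {Ψ : Cfg d → F} (h : M.RotInvariant k l Ψ) :
    ∀ᵐ x ∂BFSS.leb d, P (Ψ x) = Ψ x := by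
  have h1 := h (2 * Real.pi)
  filter_upwards [h1] with x hx
  rw [planeRot_eq hkl, AS.Ev977.RR_two_pi, hP] at hx
  exact hx

/-- everything about the parity -/
theorem main (hN : 2 ≤ N) (M : BFSS.Model N d F)
    (hone : ∃ Φ : BFSS.Conf d → F, M.IsZeroEnergyState Φ ∧ ¬ (∀ᵐ x ∂BFSS.leb d, Φ x = 0) ∧
        ∀ Ψ, M.IsZeroEnergyState Ψ → ∃ c : ℂ, ∀ᵐ x ∂BFSS.leb d, Ψ x = c • Φ x) :
    BFSS.HasDim M.IsZeroEnergyState 1 ∧
    (∀ m : ℝ, 0 < m → BFSS.HasDim (M.IsGroundState m) (Fintype.card (Nat.Partition N))) ∧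
    (∃ P : F →L[ℂ] F, M.IsParity P ∧ (∀ P', M.IsParity P' → P' = P ∨ P' = -P) ∧
      (∀ k l : Fin 9, k ≠ l → M.spinRot k l (2 * Real.pi) = P) ∧
      (∀ Ψ, M.IsZeroEnergyState Ψ → ∀ᵐ x ∂BFSS.leb d, P (Ψ x) = Ψ x) ∧
      (∀ m : ℝ, 0 < m → ∀ Ψ, M.IsGroundState m Ψ → ∀ᵐ x ∂BFSS.leb d, P (Ψ x) = Ψ x) ∧
      BFSS.HasWittenIndex P M.IsZeroEnergyState 1 ∧
      ∀ m : ℝ, 0 < m → BFSS.HasWittenIndex P (M.IsGroundState m)
        (Fintype.card (Nat.Partition N))) ∧
    (∀ Ψ, M.IsZeroEnergyState Ψ → ∀ k l : Fin 9, k ≠ l → M.RotInvariant k l Ψ) ∧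
    ∀ m : ℝ, 0 < m → ∀ Ψ, M.IsGroundState m Ψ → ∀ k l : Fin 9, k ≠ l →
      (k.val < 3 ↔ l.val < 3) → M.RotInvariant k l Ψ := by
  have hF : FiniteDimensional ℂ F := finiteDimensional_of_model M
  have : CompleteSpace F := FiniteDimensional.complete ℂ F
  obtain ⟨S, hR⟩ := setS M
  obtain ⟨Φ, hΦ, hΦ0, hΦ1⟩ := hone
  have hd1 : BFSS.HasDim M.IsZeroEnergyState 1 := hasDim_one hΦ hΦ0 hΦ1
  have hdm : ∀ m : ℝ, 0 < m → BFSS.HasDim (M.IsGroundState m) (Fintype.card (Nat.Partition N)) :=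
    fun m hm => count_pos hN M hm
  -- the rotation by `2 π` fixes the zero-energy state
  have hfix : ∀ k l : Fin 9, k ≠ l →
      ∀ᵐ x ∂BFSS.leb d, M.spinRot k l (2 * Real.pi) (Φ x) = Φ x := fun k l hkl =>
    even_of_rot hkl rfl (rot_zero hR hΦ hkl)
  have hex : ∀ k l k' l' : Fin 9, k ≠ l → k' ≠ l' → ∃ v : F, v ≠ 0 ∧
      M.spinRot k l (2 * Real.pi) v = v ∧ M.spinRot k' l' (2 * Real.pi) v = v := by
    intro k l k' l' h h'
    by_contra hcon
    refine hΦ0 ?_
    filter_upwards [hfix k l h, hfix k' l' h'] with x hx hx'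
    by_contra hne
    exact hcon ⟨Φ x, hne, hx, hx'⟩
  have hpar : ∀ k l : Fin 9, k ≠ l → M.IsParity (M.spinRot k l (2 * Real.pi)) := by
    intro k l hkl
    have ha : ∀ α A v, M.spinRot k l (2 * Real.pi) (M.θ α A v) =
        -M.θ α A (M.spinRot k l (2 * Real.pi) v) := by
      intro α A v
      rw [spinRot_eq hR, ← hR.hth]
      exact st_anti S hkl α A v
    obtain ⟨v, hv, h1, -⟩ := hex k l k l hkl hkl
    refine ⟨invol M ha hv h1, fun v => ?_, ha⟩
    rw [spinRot_eq hR]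
    exact S.st_norm k l _ v
  have h34 : (3 : Fin 9) ≠ 4 := by decide
  set P : F →L[ℂ] F := M.spinRot 3 4 (2 * Real.pi) with hP
  have hPp : M.IsParity P := hpar 3 4 h34
  have hall : ∀ k l : Fin 9, k ≠ l → M.spinRot k l (2 * Real.pi) = P := by
    intro k l hkl
    rcases parity_unique M hPp (hpar k l hkl) with h | h
    · exact h
    · exfalso
      obtain ⟨v, hv, h1, h2⟩ := hex k l 3 4 hkl h34
      rw [h] at h1
      have h3 : -(P v) = v := h1
      have h4 : P v = v := h2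
      rw [h4] at h3
      have h5 : (2 : ℂ) • v = 0 := by
        rw [two_smul]
        nth_rewrite 2 [← h3]
        rw [add_neg_cancel]
      exact hv ((smul_eq_zero.mp h5).resolve_left two_ne_zero)
  have he0 : ∀ Ψ, M.IsZeroEnergyState Ψ → ∀ᵐ x ∂BFSS.leb d, P (Ψ x) = Ψ x := fun Ψ hΨ =>
    even_of_rot h34 rfl (rot_zero hR hΨ h34)
  have hem : ∀ m : ℝ, 0 < m → ∀ Ψ, M.IsGroundState m Ψ → ∀ᵐ x ∂BFSS.leb d, P (Ψ x) = Ψ x :=
    fun m hm Ψ hΨ => even_of_rot h34 rfl (rot_pos hR hm hΨ h34 (by decide))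
  refine ⟨hd1, hdm, ⟨P, hPp, fun P' hP' => parity_unique M hPp hP', hall, he0, hem, ?_, ?_⟩,
    fun Ψ hΨ k l hkl => rot_zero hR hΨ hkl,
    fun m hm Ψ hΨ k l hkl h3 => rot_pos hR hm hΨ hkl h3⟩
  · simpa using index_of_even hd1 he0
  · exact fun m hm => index_of_even (hdm m hm) (hem m hm)

end Vale.Agent.P353.H451
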